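import Vale.Agent.P262.Planar
import Vale.Agent.P262.Lower
import Vale.Agent.P262.Three
import Vale.Agent.P262.Avg.Steinitz

namespace Vale.Agent.Results.P262.A0000_AllThree

open Vale.Agent.P262
open scoped InnerProductSpace

theorem result :
    sigma 2 = ENNReal.ofReal (Real.sqrt 3) ∧
    (∀ d : ℕ, 2 ≤ d → ENNReal.ofReal (Real.sqrt ((d : ℝ) + 1)) ≤ sigma d) ∧
    sigma 3 ≤ ENNReal.ofReal (Real.sqrt 6) ∧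
    (∀ (d N : ℕ) (v : Fin N → EuclideanSpace ℝ (Fin d)), (∀ i, ‖v i‖ ≤ 1) →
      ∃ p : (Fin N → ℤˣ) → ℝ, (∀ ε, 0 ≤ p ε) ∧ ∑ ε, p ε = 1 ∧
        ∀ k ≤ N, ∑ ε, p ε * ‖pre v ε k‖ ^ 2 ≤ 4 * d) ∧
    (∀ (d N : ℕ) (v : Fin N → EuclideanSpace ℝ (Fin d)), (∀ i, ‖v i‖ ≤ 1) →
      ∀ w : ℕ → ℝ, (∀ t, 0 ≤ w t) →
        ∃ ε : Fin N → ℤˣ, ∑ t ∈ Finset.range (N + 1), w t * ‖pre v ε t‖ ^ 2
          ≤ 4 * d * ∑ t ∈ Finset.range (N + 1), w t) ∧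
    (∀ (d N : ℕ) (v : Fin N → EuclideanSpace ℝ (Fin d)), (∀ i, ‖v i‖ ≤ 1) → ∑ i, v i = 0 →
      ∃ π : Equiv.Perm (Fin N),
        ∑ k ∈ Finset.range (N + 1), ‖Avg.ps v π k‖ ^ 2 ≤ 4 * d * (N + 1)) ∧
    (∀ (d N : ℕ) (v : Fin N → EuclideanSpace ℝ (Fin d)), (∀ i, ‖v i‖ ≤ 1) →
      ∃ a : Fin N → EuclideanSpace ℝ (Fin N), (∀ i, ‖a i‖ = 1) ∧ ∀ k ≤ N,
        (∀ θ : EuclideanSpace ℝ (Fin d),
          ‖∑ i : Fin N, if (i : ℕ) < k then ⟪v i, θ⟫_ℝ • a i else 0‖ ≤ ‖θ‖) ∧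
        ∑ i : Fin N, ∑ j : Fin N,
          (if (i : ℕ) < k ∧ (j : ℕ) < k then ⟪a i, a j⟫_ℝ * ⟪v i, v j⟫_ℝ else 0) ≤ d) := by
  refine ⟨le_antisymm sigma_two_le ?_, sqrt_succ_le_sigma, sigma_three_le,
    fun _ _ v hv => Avg.distribution v hv, fun _ _ v hv w hw => Avg.weighted v hv w hw,
    fun _ _ v hv h0 => Avg.steinitz_mean v hv h0,
    fun _ _ v hv => Avg.vector_colouring v hv⟩
  have := sqrt_succ_le_sigma 2 le_rfl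
  norm_num at this
  exact this

end Vale.Agent.Results.P262.A0000_AllThree
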