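import Vale.Agent.P262.Avg.Steinitz

namespace Vale.Agent.Results.P262.A00_MeanSquareBoth

open Vale.Agent.P262

theorem result :
    (∀ (d N : ℕ) (v : Fin N → EuclideanSpace ℝ (Fin d)), (∀ i, ‖v i‖ ≤ 1) →
      ∃ p : (Fin N → ℤˣ) → ℝ, (∀ ε, 0 ≤ p ε) ∧ ∑ ε, p ε = 1 ∧
        ∀ k ≤ N, ∑ ε, p ε * ‖pre v ε k‖ ^ 2 ≤ 4 * d) ∧
    (∀ (d N : ℕ) (v : Fin N → EuclideanSpace ℝ (Fin d)), (∀ i, ‖v i‖ ≤ 1) →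
      ∀ w : ℕ → ℝ, (∀ t, 0 ≤ w t) →
        ∃ ε : Fin N → ℤˣ, ∑ t ∈ Finset.range (N + 1), w t * ‖pre v ε t‖ ^ 2
          ≤ 4 * d * ∑ t ∈ Finset.range (N + 1), w t) ∧
    (∀ (d N : ℕ) (v : Fin N → EuclideanSpace ℝ (Fin d)), (∀ i, ‖v i‖ ≤ 1) → ∑ i, v i = 0 →
      ∃ π : Equiv.Perm (Fin N),
        ∑ k ∈ Finset.range (N + 1), ‖Avg.ps v π k‖ ^ 2 ≤ 4 * d * (N + 1)) :=
  ⟨fun _ _ v hv => Avg.distribution v hv, fun _ _ v hv w hw => Avg.weighted v hv w hw,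
    fun _ _ v hv h0 => Avg.steinitz_mean v hv h0⟩

end Vale.Agent.Results.P262.A00_MeanSquareBoth
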