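import Vale.Agent.P262.Avg.Final

namespace Vale.Agent.Results.P262.A1_VectorColouring

open scoped InnerProductSpace

theorem result :
    ∀ (d N : ℕ) (v : Fin N → EuclideanSpace ℝ (Fin d)), (∀ i, ‖v i‖ ≤ 1) →
      ∃ a : Fin N → EuclideanSpace ℝ (Fin N), (∀ i, ‖a i‖ = 1) ∧ ∀ k ≤ N,
        (∀ θ : EuclideanSpace ℝ (Fin d),
          ‖∑ i : Fin N, if (i : ℕ) < k then ⟪v i, θ⟫_ℝ • a i else 0‖ ≤ ‖θ‖) ∧
        ∑ i : Fin N, ∑ j : Fin N,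
          (if (i : ℕ) < k ∧ (j : ℕ) < k then ⟪a i, a j⟫_ℝ * ⟪v i, v j⟫_ℝ else 0) ≤ d :=
  fun _ _ v hv => Vale.Agent.P262.Avg.vector_colouring v hv

end Vale.Agent.Results.P262.A1_VectorColouring
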