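import Vale.Agent.P262.Planar
import Vale.Agent.P262.Lower

namespace Vale.Agent.Results.P262.B1_PlaneAndLower

open Vale.Agent.P262

theorem result :
    sigma 2 = ENNReal.ofReal (Real.sqrt 3) ∧
      ∀ d : ℕ, 2 ≤ d → ENNReal.ofReal (Real.sqrt ((d : ℝ) + 1)) ≤ sigma d := by
  refine ⟨le_antisymm sigma_two_le ?_, sqrt_succ_le_sigma⟩
  have := sqrt_succ_le_sigma 2 le_rfl
  norm_num at this
  exact this

end Vale.Agent.Results.P262.B1_PlaneAndLower
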